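import Vale.Agent.Lib.P047F.Interface

/-!
# P047, Part V: a polynomial close to the sign function on the scale `1/√n`

(C1) For `ε, a > 0` there is a real polynomial `p` with `|p| ≤ 1` on `[-1,1]`, `p y ≥ 1 - ε` on
`[a,1]`, `p y ≤ -(1-ε)` on `[-1,-a]`: apply `exists_polynomial_near_of_continuousOn (-1) 1` to the
continuous function `y ↦ (1 - ε/2) * max (-1) (min 1 (y / a))` with error `ε/2`.
(C2) For `j = 4 q + 1` the Chebyshev polynomial satisfies `T_j (sin ψ) = sin (j ψ)`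
(`Polynomial.Chebyshev.T_real_cos` at `π/2 - ψ`), `|T_j| ≤ 1` on `[-1,1]`
(`Polynomial.Chebyshev.abs_eval_T_real_le_one`), `natDegree ≤ j`.
(C3) `j = 4 q + 1` with `√n/(2 g₁) ≤ j ≤ √n/g₁` (exists for large `n`). For `g₀/√n ≤ y ≤ g₁/√n`,
`ψ = arcsin y`: `y ≤ ψ ≤ (π/2) y`, `j ψ ≤ π/2`, so `sin (j ψ) ≥ (2/π) j ψ ≥ (2/π) j y ≥ g₀/(π g₁)`
(`Real.mul_le_sin`). `P = p ∘ T_j` with `a = g₀/(π g₁)`, degree `≤ natDegree p * j ≤ dd n` for large `n`
(`dd n ≥ n/2 - 1`). `T_j (-y) = - T_j y` for odd `j` (from `T_j (sin ψ) = sin (j ψ)`).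
-/

namespace P047F

/-- (C1) -/
theorem poly_sign (ε a : ℝ) (hε : 0 < ε) (hε1 : ε < 1) (ha : 0 < a) :
    ∃ p : Polynomial ℝ, (∀ y, |y| ≤ 1 → |p.eval y| ≤ 1) ∧
      (∀ y, a ≤ y → y ≤ 1 → 1 - ε ≤ p.eval y) ∧ (∀ y, a ≤ y → y ≤ 1 → p.eval (-y) ≤ -(1 - ε)) := by
  have hc : Continuous fun y : ℝ => (1 - ε / 2) * max (-1) (min 1 (y / a)) := by fun_prop
  obtain ⟨p, hp⟩ := exists_polynomial_near_of_continuousOn (-1) 1 _ hc.continuousOn (ε / 2)
    (half_pos hε)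
  have h0 : 0 ≤ 1 - ε / 2 := by linarith
  refine ⟨p, ?_, ?_, ?_⟩
  · intro y hy
    have h1 := hp y (Set.mem_Icc.2 (abs_le.1 hy))
    have h2 : |(1 - ε / 2) * max (-1) (min 1 (y / a))| ≤ 1 - ε / 2 := by
      rw [abs_mul, abs_of_nonneg h0]
      have h3 : |max (-1) (min 1 (y / a))| ≤ 1 := by
        rw [abs_le]
        exact ⟨le_max_left _ _, max_le (by norm_num) (min_le_left _ _)⟩
      calc (1 - ε / 2) * |max (-1) (min 1 (y / a))| ≤ (1 - ε / 2) * 1 :=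
            mul_le_mul_of_nonneg_left h3 h0
        _ = 1 - ε / 2 := mul_one _
    have h3 : |p.eval y| ≤ |p.eval y - (1 - ε / 2) * max (-1) (min 1 (y / a))| +
        |(1 - ε / 2) * max (-1) (min 1 (y / a))| := by
      have h4 := abs_add_le (p.eval y - (1 - ε / 2) * max (-1) (min 1 (y / a)))
        ((1 - ε / 2) * max (-1) (min 1 (y / a)))
      rwa [sub_add_cancel] at h4
    linarith
  · intro y hy1 hy2
    have h1 := hp y (Set.mem_Icc.2 ⟨by linarith, hy2⟩)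
    have h2 : 1 ≤ y / a := (one_le_div ha).2 hy1
    have h3 : max (-1 : ℝ) (min 1 (y / a)) = 1 := by
      rw [min_eq_left h2]
      norm_num
    rw [h3, mul_one] at h1
    have h4 := (abs_lt.1 h1).1
    linarith
  · intro y hy1 hy2
    have h1 := hp (-y) (Set.mem_Icc.2 ⟨by linarith, by linarith⟩)
    have h2 : 1 ≤ y / a := (one_le_div ha).2 hy1
    have h3 : max (-1 : ℝ) (min 1 (-y / a)) = -1 := by
      rw [neg_div]
      apply max_eq_left
      exact (min_le_right _ _).trans (by linarith)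
    rw [h3] at h1
    have h4 := (abs_lt.1 h1).2
    linarith

/-- (C2) -/
theorem T_sin (q : ℕ) (ψ : ℝ) :
    (Polynomial.Chebyshev.T ℝ (4 * q + 1 : ℕ)).eval (Real.sin ψ) = Real.sin ((4 * q + 1 : ℕ) * ψ) := by
  have h1 : Real.sin ψ = Real.cos (Real.pi / 2 - ψ) := (Real.cos_pi_div_two_sub ψ).symm
  rw [h1, Polynomial.Chebyshev.T_real_cos]
  have h2 : (((4 * q + 1 : ℕ) : ℤ) : ℝ) * (Real.pi / 2 - ψ) =
      (Real.pi / 2 - ((4 * q + 1 : ℕ) : ℝ) * ψ) + (q : ℝ) * (2 * Real.pi) := by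
    push_cast
    ring
  rw [h2, Real.cos_add_nat_mul_two_pi, Real.cos_pi_div_two_sub]

/-- (C3) -/
theorem cheb (ε g₀ g₁ : ℝ) (hε : 0 < ε) (hε1 : ε < 1) (h0 : 0 < g₀) (h1 : 0 < g₁) :
    ∃ n0 : ℕ, ∀ n : ℕ, n0 ≤ n → ∃ P : Polynomial ℝ, P.natDegree ≤ dd n ∧
      (∀ y, |y| ≤ 1 → |P.eval y| ≤ 1) ∧
      (∀ y, g₀ / Real.sqrt n ≤ y → y ≤ g₁ / Real.sqrt n →
        1 - ε ≤ P.eval y ∧ P.eval (-y) ≤ -(1 - ε)) := by
  obtain ⟨p, hp1, hp2, hp3⟩ := poly_sign ε (g₀ / (Real.pi * g₁)) hε hε1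
    (div_pos h0 (mul_pos Real.pi_pos h1))
  obtain ⟨n0, hn0⟩ := exists_nat_ge (max (8 * g₁) (2 * (p.natDegree / g₁) + 2) ^ 2)
  refine ⟨n0, fun n hn => ?_⟩
  set w : ℝ := Real.sqrt n with hw
  have hwm : max (8 * g₁) (2 * (p.natDegree / g₁) + 2) ≤ w := by
    rw [hw]
    refine Real.le_sqrt_of_sq_le ?_
    refine hn0.trans ?_
    exact_mod_cast hn
  have hw1 : 8 * g₁ ≤ w := (le_max_left _ _).trans hwm
  have hw2 : 2 * (p.natDegree / g₁) + 2 ≤ w := (le_max_right _ _).trans hwm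
  have hw0 : 0 < w := by linarith
  have hwsq : w ^ 2 = n := Real.sq_sqrt (Nat.cast_nonneg n)
  -- the choice of `j`
  have hr : 8 ≤ w / g₁ := by
    rw [le_div_iff₀ h1]
    exact hw1
  set q : ℕ := ⌊(w / g₁ - 1) / 4⌋₊ with hq
  have hq1 : (q : ℝ) ≤ (w / g₁ - 1) / 4 := Nat.floor_le (by linarith)
  have hq2 : (w / g₁ - 1) / 4 < (q : ℝ) + 1 := Nat.lt_floor_add_one _
  set j : ℕ := 4 * q + 1 with hj
  have hjr : (j : ℝ) = 4 * q + 1 := by
    rw [hj]
    push_cast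
    ring
  have hj1 : (j : ℝ) ≤ w / g₁ := by
    rw [hjr]
    linarith
  have hj2 : w / g₁ / 2 ≤ (j : ℝ) := by
    rw [hjr]
    linarith
  have hj0 : (0 : ℝ) ≤ j := Nat.cast_nonneg j
  refine ⟨p.comp (Polynomial.Chebyshev.T ℝ (j : ℤ)), ?_, ?_, ?_⟩
  · -- degree
    have hT : (Polynomial.Chebyshev.T ℝ (j : ℤ)).natDegree ≤ j := by
      rw [Polynomial.Chebyshev.natDegree_T]
      simp
    have hd1 : (p.comp (Polynomial.Chebyshev.T ℝ (j : ℤ))).natDegree ≤ p.natDegree * j :=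
      Polynomial.natDegree_comp_le.trans (Nat.mul_le_mul_left _ hT)
    refine hd1.trans ?_
    have hd2 : ((p.natDegree * j : ℕ) : ℝ) ≤ (n : ℝ) / 2 - 1 := by
      push_cast
      have hd3 : (p.natDegree : ℝ) * j ≤ p.natDegree * (w / g₁) :=
        mul_le_mul_of_nonneg_left hj1 (Nat.cast_nonneg _)
      have hd4 : (p.natDegree : ℝ) * (w / g₁) = (p.natDegree / g₁) * w := by ring
      have hd5 : (p.natDegree : ℝ) / g₁ ≤ w / 2 - 1 := by linarith
      have hd6 : ((p.natDegree : ℝ) / g₁) * w ≤ (w / 2 - 1) * w :=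
        mul_le_mul_of_nonneg_right hd5 hw0.le
      have hd8 : 0 ≤ (p.natDegree : ℝ) / g₁ := div_nonneg (Nat.cast_nonneg _) h1.le
      nlinarith
    have hd7 : n ≤ 2 * dd n + 2 := by
      unfold dd mm
      omega
    have hd9 : (n : ℝ) ≤ 2 * (dd n : ℝ) + 2 := by exact_mod_cast hd7
    have hd10 : ((p.natDegree * j : ℕ) : ℝ) ≤ (dd n : ℝ) := by linarith
    exact_mod_cast hd10
  · intro y hy
    rw [Polynomial.eval_comp]
    exact hp1 _ (Polynomial.Chebyshev.abs_eval_T_real_le_one _ hy)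
  · intro y hy1 hy2
    have hy0 : 0 < y := (div_pos h0 hw0).trans_le hy1
    have hy3 : y ≤ 1 := by
      refine hy2.trans ?_
      rw [div_le_one hw0]
      linarith
    set ψ : ℝ := Real.arcsin y with hψ
    have hs : Real.sin ψ = y := Real.sin_arcsin (by linarith) hy3
    have hψ0 : 0 ≤ ψ := Real.arcsin_nonneg.2 hy0.le
    have hψ1 : ψ ≤ Real.pi / 2 := Real.arcsin_le_pi_div_two y
    have hψ2 : y ≤ ψ := by
      rw [← hs]
      exact Real.sin_le hψ0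
    have hψ3 : 2 / Real.pi * ψ ≤ y := by
      have h := Real.mul_le_sin hψ0 hψ1
      rwa [hs] at h
    have hpi := Real.pi_pos
    have hψ4 : ψ ≤ Real.pi / 2 * y := by
      have h := mul_le_mul_of_nonneg_left hψ3 (by positivity : (0 : ℝ) ≤ Real.pi / 2)
      have h' : Real.pi / 2 * (2 / Real.pi * ψ) = ψ := by
        field_simp
      rwa [h'] at h
    have hwg : w / g₁ * (g₁ / w) = 1 := by
      field_simp
    have hj3 : (j : ℝ) * ψ ≤ Real.pi / 2 := by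
      calc (j : ℝ) * ψ ≤ (w / g₁) * (Real.pi / 2 * (g₁ / w)) := by
            refine mul_le_mul hj1 (hψ4.trans ?_) hψ0 (by positivity)
            exact mul_le_mul_of_nonneg_left hy2 (by positivity)
        _ = Real.pi / 2 * (w / g₁ * (g₁ / w)) := by ring
        _ = Real.pi / 2 := by rw [hwg, mul_one]
    have hj4 : 0 ≤ (j : ℝ) * ψ := mul_nonneg hj0 hψ0
    have hj5 : g₀ / (Real.pi * g₁) ≤ Real.sin ((j : ℝ) * ψ) := by
      have h := Real.mul_le_sin hj4 hj3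
      refine le_trans ?_ h
      have h2 : w / g₁ / 2 * (g₀ / w) ≤ (j : ℝ) * ψ := by
        refine mul_le_mul hj2 (hy1.trans hψ2) (by positivity) hj0
      calc g₀ / (Real.pi * g₁) = 2 / Real.pi * (w / g₁ / 2 * (g₀ / w)) := by
            field_simp
        _ ≤ 2 / Real.pi * ((j : ℝ) * ψ) := mul_le_mul_of_nonneg_left h2 (by positivity)
    have hT1 : (Polynomial.Chebyshev.T ℝ (j : ℤ)).eval y = Real.sin ((j : ℝ) * ψ) := by
      have h := T_sin q ψ
      rw [hs] at h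
      exact h
    have hT2 : (Polynomial.Chebyshev.T ℝ (j : ℤ)).eval (-y) = -Real.sin ((j : ℝ) * ψ) := by
      have h := T_sin q (-ψ)
      rw [Real.sin_neg, hs, mul_neg, Real.sin_neg] at h
      exact h
    rw [Polynomial.eval_comp, Polynomial.eval_comp, hT1, hT2]
    exact ⟨hp2 _ hj5 (Real.sin_le_one _), hp3 _ hj5 (Real.sin_le_one _)⟩

end P047F
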