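import Vale.Agent.Lib.P047F.V.Abs
import Vale.Agent.Lib.P047F.V.Cheb

/-!
# P047, Part V
-/

open Finset

namespace P047F

private theorem vmain_pointwise {ε g₀ g₁ r s N F : ℝ} (hr : 0 < r) (hrN : r * r = N)
    (hε : 0 < ε) (hε1 : ε < 1) (h0 : 0 < g₀) (h1 : 0 < g₁) (hF : |F| ≤ 1)
    (hmid : ∀ y, g₀ / r ≤ y → y ≤ g₁ / r →
      (1 / N * s = y → 1 - ε ≤ F) ∧ (1 / N * s = -y → F ≤ -(1 - ε))) :
    (1 - ε) * |s| - 2 * g₀ * r - 2 / (g₁ * r) * s ^ 2 ≤ F * s := by
  have hF1 := abs_le.1 hF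
  have hFs : -|s| ≤ F * s := by
    have : |F * s| ≤ |s| := by
      rw [abs_mul]
      exact mul_le_of_le_one_left (abs_nonneg s) hF
    exact (abs_le.1 this).1
  have hs2 : s ^ 2 = |s| ^ 2 := (sq_abs s).symm
  have hsn := abs_nonneg s
  have hg1r : 0 < g₁ * r := mul_pos h1 hr
  have hterm : 0 ≤ 2 / (g₁ * r) * s ^ 2 := by positivity
  by_cases hA : |s| < g₀ * r
  · nlinarith [mul_nonneg hε.le hsn]
  · by_cases hB : g₁ * r < |s|
    · have h2 : |s| ≤ 1 / (g₁ * r) * s ^ 2 := by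
        rw [hs2, one_div, inv_mul_eq_div, le_div_iff₀ hg1r]
        nlinarith
      have h3 : 2 / (g₁ * r) * s ^ 2 = 2 * (1 / (g₁ * r) * s ^ 2) := by ring
      have h4 : 0 ≤ g₀ * r := (mul_pos h0 hr).le
      nlinarith [mul_nonneg hε.le hsn]
    · push Not at hA hB
      have hy1 : g₀ / r ≤ 1 / N * |s| := by
        rw [div_le_iff₀ hr, ← hrN]
        have : 1 / (r * r) * |s| * r = |s| / r := by
          field_simp
        rw [this, le_div_iff₀ hr]
        exact hA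
      have hy2 : 1 / N * |s| ≤ g₁ / r := by
        rw [le_div_iff₀ hr, ← hrN]
        have : 1 / (r * r) * |s| * r = |s| / r := by
          field_simp
        rw [this, div_le_iff₀ hr]
        exact hB
      have hm := hmid _ hy1 hy2
      have h4 : 0 ≤ g₀ * r := (mul_pos h0 hr).le
      rcases le_or_gt 0 s with hs | hs
      · rw [abs_of_nonneg hs] at hm ⊢
        have := hm.1 rfl
        nlinarith
      · rw [abs_of_neg hs] at hm ⊢
        have := hm.2 (by ring)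
        nlinarith

theorem partV : PartV := by
  intro η hη
  -- a smaller `η`
  obtain ⟨η', hη'0, hη'1, hη'⟩ : ∃ η' : ℝ, 0 < η' ∧ η' < 1 ∧ η' ≤ η :=
    ⟨min η (1 / 2), by positivity, lt_of_le_of_lt (min_le_right _ _) (by norm_num), min_le_left _ _⟩
  set ε : ℝ := η' / 4 with hε
  have hε0 : 0 < ε := by positivity
  have hε1 : ε < 1 := by rw [hε]; linarith
  obtain ⟨n0, hn0⟩ := cheb ε (η' / 16) (16 / η') hε0 hε1 (by positivity) (by positivity)
  obtain ⟨n1, hn1⟩ := exists_nat_ge (1 / ε)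
  refine ⟨max n0 (max n1 1), fun n hn => ?_⟩
  have hnn0 : n0 ≤ n := le_trans (le_max_left _ _) hn
  have hnn1 : n1 ≤ n := le_trans (le_trans (le_max_left _ _) (le_max_right _ _)) hn
  have hn1' : 1 ≤ n := le_trans (le_trans (le_max_right _ _) (le_max_right _ _)) hn
  have hnpos : (0 : ℝ) < n := by exact_mod_cast hn1'
  obtain ⟨P, hdeg, hbd, hmid⟩ := hn0 n hnn0
  have hc : ∀ x : Fin n → Bool, |1 / (n : ℝ) * ss x| ≤ 1 := by
    intro x
    rw [abs_mul, abs_of_pos (by positivity : (0 : ℝ) < 1 / n), one_div, inv_mul_le_iff₀ hnpos,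
      mul_one]
    exact abs_ss_le x
  refine ⟨fun x => P.eval (1 / (n : ℝ) * ss x), fun x => hbd _ (hc x), degLe_poly P hdeg _, ?_⟩
  rw [S1_eq_ss]
  set r : ℝ := Real.sqrt n with hr
  have hr0 : 0 < r := Real.sqrt_pos.2 hnpos
  have hrr : r * r = n := Real.mul_self_sqrt hnpos.le
  have hpt : ∀ x : Fin n → Bool,
      (1 - ε) * |ss x| - 2 * (η' / 16) * r - 2 / (16 / η' * r) * ss x ^ 2 ≤
        P.eval (1 / (n : ℝ) * ss x) * ss x := by
    intro x
    refine vmain_pointwise hr0 hrr hε0 hε1 (by positivity) (by positivity) (hbd _ (hc x)) ?_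
    intro y hy1 hy2
    have hm := hmid y hy1 hy2
    exact ⟨fun h => by rw [h]; exact hm.1, fun h => by rw [h]; exact hm.2⟩
  have hsum := Finset.sum_le_sum (fun x (_ : x ∈ (Finset.univ : Finset (Fin n → Bool))) => hpt x)
  rw [Finset.sum_sub_distrib, Finset.sum_sub_distrib, ← Finset.mul_sum, ← Finset.mul_sum,
    ← Finset.mul_sum, sum_ss_sq, Finset.sum_const, Finset.card_univ, Fintype.card_fun, Fintype.card_bool,
    Fintype.card_fin, nsmul_eq_mul] at hsum
  push_cast at hsum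
  have h2n : (0 : ℝ) < 2 ^ n := by positivity
  have habs := sum_abs_ss n hn1'
  rw [le_div_iff₀ h2n]
  refine le_trans ?_ hsum
  -- `√n ≤ 2 √(2n/π)`
  set R : ℝ := Real.sqrt (2 * n / Real.pi) with hR
  have hpi := Real.pi_pos
  have hpi4 := Real.pi_le_four
  have hrR : r ≤ 2 * R := by
    have h4 : r = Real.sqrt (n : ℝ) := rfl
    have h5 : 2 * R = Real.sqrt (4 * (2 * n / Real.pi)) := by
      rw [Real.sqrt_mul (by norm_num) , show Real.sqrt 4 = 2 by
        rw [show (4 : ℝ) = 2 ^ 2 by norm_num]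
        exact Real.sqrt_sq (by norm_num)]
    rw [h5, h4]
    apply Real.sqrt_le_sqrt
    rw [← mul_div_assoc, le_div_iff₀ hpi]
    nlinarith
  have hR0 : 0 ≤ R := Real.sqrt_nonneg _
  -- `√(2(n-1)/π) ≥ (1-ε) √(2n/π)`
  have hlow : (1 - ε) * R ≤ Real.sqrt (2 * ((n : ℝ) - 1) / Real.pi) := by
    apply Real.le_sqrt_of_sq_le
    rw [mul_pow, hR, Real.sq_sqrt (by positivity), ← mul_div_assoc]
    apply div_le_div_of_nonneg_right _ hpi.le
    have h6 : 1 ≤ ε * n := by
      have h7 : 1 / ε ≤ n := hn1.trans (by exact_mod_cast hnn1)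
      rw [div_le_iff₀ hε0] at h7
      linarith
    have h8 : (1 - ε) ^ 2 ≤ 1 - ε := by nlinarith
    nlinarith
  have hA : (1 - ε) * R * 2 ^ n ≤ ∑ x : Fin n → Bool, |ss x| :=
    (mul_le_mul_of_nonneg_right hlow h2n.le).trans habs
  have hterm3 : 2 / (16 / η' * r) * ((n : ℝ) * 2 ^ n) = η' / 8 * r * 2 ^ n := by
    rw [← hrr]
    field_simp
    ring
  rw [hterm3]
  have hA' : (1 - ε) * ((1 - ε) * R * 2 ^ n) ≤ (1 - ε) * ∑ x : Fin n → Bool, |ss x| :=
    mul_le_mul_of_nonneg_left hA (by linarith)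
  have hfin : (1 - η) * R * 2 ^ n ≤
      (1 - ε) * ((1 - ε) * R * 2 ^ n) - 2 * (η' / 16) * (2 ^ n * r) - η' / 8 * r * 2 ^ n := by
    have h9 : (1 - η) * R ≤ (1 - ε) * ((1 - ε) * R) - 2 * (η' / 16) * r - η' / 8 * r := by
      have h10 : (1 - η) * R ≤ (1 - η') * R := mul_le_mul_of_nonneg_right (by linarith) hR0
      have h11 : η' / 4 * r ≤ η' / 4 * (2 * R) := mul_le_mul_of_nonneg_left hrR (by positivity)
      have h12 : (1 - 2 * ε) * R ≤ (1 - ε) * ((1 - ε) * R) := by nlinarith [sq_nonneg ε]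
      have h13 : (1 - 2 * ε) * R = R - η' / 2 * R := by rw [hε]; ring
      nlinarith
    have h14 := mul_le_mul_of_nonneg_right h9 h2n.le
    nlinarith
  linarith

end P047F
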