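import Vale.Agent.Lib.P047F.V.Base

/-!
# P047, Part V: the mean of `|ss x|`

`∑_x φ(ss x) = ∑_{k ≤ n} C(n,k) φ(n - 2k)` (group the `x` by the set where `x i = true`), or work with
the recursion: with `a_n = ∑_x |ss x|`, `z_n = #{x | ss x = 0}` one has `a_{n+1} = 2 a_n + 2 z_n`
(integers `a`: `|a+1| + |a-1| = 2|a|` if `a ≠ 0`, `= 2` if `a = 0`), `z_{2k} = C(2k,k)`, `z_{2k+1} = 0`.
So `a_{2k+1} / 2^(2k+1) = (2k+1) C(2k,k) / 4^k`, and `a_{n+1} ≥ 2 a_n`.
Wallis: `Real.Wallis.W_le`, `Real.Wallis.W_eq_factorial_ratio`: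
`4^(2k) / (C(2k,k)^2 (2k+1)) = W k ≤ π/2`, so `(2k+1) C(2k,k) / 4^k ≥ √(2 (2k+1) / π)`.
For `n = 2k+1` this is `√(2 n/π)`, for `n = 2k+2` use `a_{n} ≥ 2 a_{n-1}`.
-/

open Finset

namespace P047F

/-- the integer version of `ss` -/
private def vabsS {n : ℕ} (x : Fin n → Bool) : ℤ := ∑ i, if x i then (-1 : ℤ) else 1

private theorem vabs_ss {n : ℕ} (x : Fin n → Bool) : ss x = (vabsS x : ℝ) := by
  unfold ss vabsS
  rw [Int.cast_sum]
  refine Finset.sum_congr rfl fun i _ => ?_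
  unfold chi
  rw [Finset.prod_singleton]

private theorem vabs_cons {n : ℕ} (b : Bool) (y : Fin n → Bool) :
    vabsS (Fin.cons b y : Fin (n + 1) → Bool) = (if b then (-1 : ℤ) else 1) + vabsS y := by
  unfold vabsS
  rw [Fin.sum_univ_succ, Fin.cons_zero]
  simp only [Fin.cons_succ]

private theorem vabs_split {n : ℕ} (φ : ℤ → ℝ) :
    ∑ x : Fin (n + 1) → Bool, φ (vabsS x) =
      ∑ y : Fin n → Bool, (φ (-1 + vabsS y) + φ (1 + vabsS y)) := by
  rw [← (Fin.consEquiv fun _ : Fin (n + 1) => Bool).sum_comp, Fintype.sum_prod_type,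
    Fintype.sum_bool, ← Finset.sum_add_distrib]
  refine Finset.sum_congr rfl fun y _ => ?_
  have h1 : vabsS ((Fin.consEquiv fun _ : Fin (n + 1) => Bool) (true, y)) = -1 + vabsS y :=
    vabs_cons true y
  have h2 : vabsS ((Fin.consEquiv fun _ : Fin (n + 1) => Bool) (false, y)) = 1 + vabsS y :=
    vabs_cons false y
  rw [h1, h2]

private theorem vabs_binom (n : ℕ) (φ : ℤ → ℝ) :
    ∑ x : Fin n → Bool, φ (vabsS x) =
      ∑ j ∈ range (n + 1), (n.choose j : ℝ) * φ ((n : ℤ) - 2 * (j : ℤ)) := by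
  induction n generalizing φ with
  | zero =>
    have h1 : ∀ x : Fin 0 → Bool, vabsS x = 0 := fun x => by
      unfold vabsS
      exact Finset.sum_of_isEmpty _
    rw [Finset.sum_congr rfl fun x _ => by rw [h1 x]]
    simp
  | succ n ih =>
    rw [vabs_split, ih (fun a => φ (-1 + a) + φ (1 + a)),
      Finset.sum_choose_succ_mul (fun i _ => φ (((n + 1 : ℕ) : ℤ) - 2 * (i : ℤ))) n,
      ← Finset.sum_add_distrib]
    refine Finset.sum_congr rfl fun j _ => ?_
    have e1 : (-1 : ℤ) + ((n : ℤ) - 2 * (j : ℤ)) = ((n + 1 : ℕ) : ℤ) - 2 * ((j + 1 : ℕ) : ℤ) := by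
      push_cast
      ring
    have e2 : (1 : ℤ) + ((n : ℤ) - 2 * (j : ℤ)) = ((n + 1 : ℕ) : ℤ) - 2 * (j : ℤ) := by
      push_cast
      ring
    rw [e1, e2]
    ring

/-- the number of zeros of `ss` -/
private noncomputable def vabsZ (n : ℕ) : ℝ :=
  ∑ x : Fin n → Bool, if vabsS x = 0 then (1 : ℝ) else 0

private theorem vabs_Z_even (k : ℕ) : vabsZ (2 * k) = (Nat.centralBinom k : ℝ) := by
  unfold vabsZ
  rw [vabs_binom (2 * k) (fun a => if a = 0 then (1 : ℝ) else 0),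
    Finset.sum_eq_single_of_mem k (Finset.mem_range.2 (by omega))]
  · rw [if_pos (by push_cast; ring), mul_one]
    rfl
  · intro j _ hj
    rw [if_neg (by push_cast; omega), mul_zero]

private theorem vabs_Z_odd (k : ℕ) : vabsZ (2 * k + 1) = 0 := by
  unfold vabsZ
  rw [vabs_binom (2 * k + 1) (fun a => if a = 0 then (1 : ℝ) else 0)]
  refine Finset.sum_eq_zero fun j _ => ?_
  rw [if_neg (by push_cast; omega), mul_zero]

private theorem vabs_rec (n : ℕ) :
    ∑ x : Fin (n + 1) → Bool, |ss x| = 2 * (∑ x : Fin n → Bool, |ss x|) + 2 * vabsZ n := by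
  have h1 : ∀ (m : ℕ), ∑ x : Fin m → Bool, |ss x| = ∑ x : Fin m → Bool, |((vabsS x : ℤ) : ℝ)| :=
    fun m => Finset.sum_congr rfl fun x _ => by rw [vabs_ss]
  rw [h1, h1, vabs_split (fun a => |((a : ℤ) : ℝ)|)]
  unfold vabsZ
  rw [Finset.mul_sum, Finset.mul_sum, ← Finset.sum_add_distrib]
  refine Finset.sum_congr rfl fun y _ => ?_
  generalize vabsS y = a
  have h2 : |(-1 + a : ℤ)| + |(1 + a : ℤ)| = 2 * |a| + 2 * (if a = 0 then (1 : ℤ) else 0) := by
    split_ifs with h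
    · subst h
      norm_num
    · rcases lt_or_gt_of_ne h with h3 | h3
      · rw [abs_of_nonpos (by omega), abs_of_nonpos (by omega), abs_of_neg h3]
        ring
      · rw [abs_of_nonneg (by omega), abs_of_nonneg (by omega), abs_of_pos h3]
        ring
  have h3 : ((|(-1 + a : ℤ)| + |(1 + a : ℤ)| : ℤ) : ℝ) =
      ((2 * |a| + 2 * (if a = 0 then (1 : ℤ) else 0) : ℤ) : ℝ) := by rw [h2]
  push_cast at h3 ⊢
  exact h3

/-- for odd `n = 2k+1` -/
theorem sum_abs_ss_odd (k : ℕ) :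
    ∑ x : Fin (2 * k + 1) → Bool, |ss x| = 2 * ((2 * k + 1) * (Nat.centralBinom k : ℝ)) := by
  induction k with
  | zero =>
    rw [vabs_rec (2 * 0), vabs_Z_even]
    have h1 : ∑ x : Fin (2 * 0) → Bool, |ss x| = 0 := by
      refine Finset.sum_eq_zero fun x _ => ?_
      have h0 : IsEmpty (Fin (2 * 0)) := Fin.isEmpty'
      have : ss x = 0 := by
        unfold ss
        exact Finset.sum_of_isEmpty _
      rw [this, abs_zero]
    rw [h1]
    simp
  | succ k ih =>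
    have e1 : 2 * (k + 1) = 2 * k + 1 + 1 := by ring
    have h1 : ∑ x : Fin (2 * (k + 1) + 1) → Bool, |ss x| =
        2 * (∑ x : Fin (2 * (k + 1)) → Bool, |ss x|) + 2 * vabsZ (2 * (k + 1)) := vabs_rec _
    have h2 : ∑ x : Fin (2 * (k + 1)) → Bool, |ss x| =
        2 * (∑ x : Fin (2 * k + 1) → Bool, |ss x|) + 2 * vabsZ (2 * k + 1) := by
      have h3 := vabs_rec (2 * k + 1)
      rw [← e1] at h3
      exact h3
    rw [h1, h2, vabs_Z_even, vabs_Z_odd, ih]
    have h4 : ((k : ℝ) + 1) * (Nat.centralBinom (k + 1) : ℝ) =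
        2 * (2 * k + 1) * (Nat.centralBinom k : ℝ) := by
      exact_mod_cast Nat.succ_mul_centralBinom_succ k
    push_cast
    linear_combination (-4) * h4

theorem sum_abs_ss_succ (n : ℕ) :
    2 * ∑ x : Fin n → Bool, |ss x| ≤ ∑ x : Fin (n + 1) → Bool, |ss x| := by
  rw [vabs_rec]
  have h1 : 0 ≤ vabsZ n := by
    unfold vabsZ
    refine Finset.sum_nonneg fun x _ => ?_
    split_ifs
    · exact zero_le_one
    · exact le_rfl
  linarith

/-- Wallis -/
theorem wallis_low (k : ℕ) :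
    Real.sqrt (2 * (2 * k + 1) / Real.pi) ≤ (2 * k + 1) * (Nat.centralBinom k : ℝ) / 4 ^ k := by
  have hC : (0 : ℝ) < (Nat.centralBinom k : ℝ) := by exact_mod_cast Nat.centralBinom_pos k
  rw [Real.sqrt_le_left (by positivity)]
  have h1 := Real.Wallis.W_le k
  rw [Real.Wallis.W_eq_factorial_ratio] at h1
  have h2 : ((2 * k).factorial : ℝ) = (Nat.centralBinom k : ℝ) * ((k.factorial : ℝ)) ^ 2 := by
    have h3 := Nat.choose_mul_factorial_mul_factorial (show k ≤ 2 * k by omega)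
    have h4 : 2 * k - k = k := by omega
    rw [h4] at h3
    rw [Nat.centralBinom_eq_two_mul_choose]
    rw [← h3]
    push_cast
    ring
  have hk : (0 : ℝ) < (k.factorial : ℝ) := by exact_mod_cast Nat.factorial_pos k
  have hpi := Real.pi_pos
  rw [h2] at h1
  have h5 : (2 : ℝ) ^ (4 * k) * (k.factorial : ℝ) ^ 4 /
      (((Nat.centralBinom k : ℝ) * (k.factorial : ℝ) ^ 2) ^ 2 * (2 * k + 1)) =
      (4 ^ k) ^ 2 / ((Nat.centralBinom k : ℝ) ^ 2 * (2 * k + 1)) := by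
    have h6 : (2 : ℝ) ^ (4 * k) = (4 ^ k) ^ 2 := by
      rw [← pow_mul, show (4 : ℝ) = 2 ^ 2 by norm_num, ← pow_mul]
      congr 1
      ring
    rw [h6]
    field_simp
  rw [h5, div_le_iff₀ (by positivity)] at h1
  rw [div_le_iff₀ hpi, div_pow, div_mul_eq_mul_div, le_div_iff₀ (by positivity)]
  have h7 : (0 : ℝ) < 2 * k + 1 := by positivity
  nlinarith [mul_le_mul_of_nonneg_left h1 h7.le]

theorem sum_abs_ss (n : ℕ) (hn : 1 ≤ n) :
    Real.sqrt (2 * ((n : ℝ) - 1) / Real.pi) * 2 ^ n ≤ ∑ x : Fin n → Bool, |ss x| := by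
  have hodd : ∀ k : ℕ, Real.sqrt (2 * (2 * k + 1) / Real.pi) * 2 ^ (2 * k + 1) ≤
      ∑ x : Fin (2 * k + 1) → Bool, |ss x| := by
    intro k
    rw [sum_abs_ss_odd]
    have h1 := wallis_low k
    rw [le_div_iff₀ (by positivity)] at h1
    have h2 : (2 : ℝ) ^ (2 * k + 1) = 2 * 4 ^ k := by
      rw [pow_succ, pow_mul]
      norm_num
      ring
    rw [h2]
    linarith
  rcases Nat.even_or_odd' n with ⟨k, hk | hk⟩
  · -- even
    obtain ⟨j, rfl⟩ : ∃ j, k = j + 1 := ⟨k - 1, by omega⟩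
    obtain rfl : n = 2 * j + 1 + 1 := by omega
    have h1 := hodd j
    have h2 := sum_abs_ss_succ (2 * j + 1)
    have h3 : 2 * (((2 * j + 1 + 1 : ℕ) : ℝ) - 1) = 2 * (2 * j + 1) := by
      push_cast
      ring
    rw [h3, pow_succ (2 : ℝ) (2 * j + 1)]
    linarith
  · obtain rfl : n = 2 * k + 1 := hk
    refine le_trans ?_ (hodd k)
    refine mul_le_mul_of_nonneg_right (Real.sqrt_le_sqrt ?_) (by positivity)
    have hpi := Real.pi_pos
    refine div_le_div_of_nonneg_right ?_ hpi.le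
    push_cast
    linarith

end P047F
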