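import Vale.Agent.Lib.P047F.Interface

/-!
# P047, Part V: the sum of the coordinates and polynomials in it
-/

open Finset

namespace P047F

/-- the sum of the `±1`-coordinates -/
noncomputable def ss {n : ℕ} (x : Fin n → Bool) : ℝ := ∑ i : Fin n, (chi {i} x : ℝ)

theorem S1_eq_ss {n : ℕ} (f : (Fin n → Bool) → ℝ) : S1 f = (∑ x, f x * ss x) / 2 ^ n := by
  unfold S1 ss
  rw [Fintype.card_fin]

/-- sign of a bit -/
noncomputable def vbase_sg (b : Bool) : ℝ := if b then -1 else 1

theorem vbase_chi_cast {n : ℕ} (T : Finset (Fin n)) (x : Fin n → Bool) :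
    (chi T x : ℝ) = ∏ i ∈ T, vbase_sg (x i) := by
  unfold chi vbase_sg
  push_cast
  rfl

theorem vbase_sg_sq (b : Bool) : vbase_sg b * vbase_sg b = 1 := by
  unfold vbase_sg
  split_ifs <;> norm_num

theorem vbase_sum_chi {n : ℕ} (S : Finset (Fin n)) (hS : S.Nonempty) :
    ∑ y : Fin n → Bool, (chi S y : ℝ) = 0 := by
  have h1 : ∀ y : Fin n → Bool, (chi S y : ℝ) =
      ∏ i : Fin n, if i ∈ S then vbase_sg (y i) else 1 := by
    intro y
    rw [vbase_chi_cast, Finset.prod_ite_mem, Finset.univ_inter]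
  simp_rw [h1]
  have h2 : ∑ y : Fin n → Bool, ∏ i : Fin n, (if i ∈ S then vbase_sg (y i) else 1) =
      ∏ i : Fin n, ∑ c : Bool, (if i ∈ S then vbase_sg c else 1) := by
    rw [Finset.prod_univ_sum, Fintype.piFinset_univ]
  rw [h2]
  obtain ⟨i, hi⟩ := hS
  refine Finset.prod_eq_zero (Finset.mem_univ i) ?_
  simp [hi, vbase_sg]

/-- multiplication of a character by a coordinate -/
theorem vbase_chi_mul {n : ℕ} (i : Fin n) (T : Finset (Fin n)) (x : Fin n → Bool) :
    (chi {i} x : ℝ) * (chi T x : ℝ) =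
      (chi (if i ∈ T then T.erase i else insert i T) x : ℝ) := by
  rw [vbase_chi_cast, vbase_chi_cast, vbase_chi_cast, Finset.prod_singleton]
  split_ifs with h
  · rw [← Finset.mul_prod_erase T (fun i => vbase_sg (x i)) h, ← mul_assoc, vbase_sg_sq, one_mul]
  · rw [Finset.prod_insert h]

theorem abs_ss_le {n : ℕ} (x : Fin n → Bool) : |ss x| ≤ n := by
  unfold ss
  refine (Finset.abs_sum_le_sum_abs _ _).trans ?_
  refine (Finset.sum_le_sum (g := fun _ => (1 : ℝ)) fun i _ => ?_).trans ?_
  · rw [vbase_chi_cast, Finset.prod_singleton]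
    unfold vbase_sg
    split_ifs <;> norm_num
  · simp

/-- orthogonality of the characters `chi {i}`; or by expansion of the square:
`∑ x, chi {i} x * chi {j} x = if i = j then 2 ^ n else 0` (flip the coordinate `i`) -/
theorem sum_ss_sq (n : ℕ) : ∑ x : Fin n → Bool, ss x ^ 2 = n * 2 ^ n := by
  have h1 : ∀ x : Fin n → Bool, ss x ^ 2 = ∑ i : Fin n, ∑ j : Fin n,
      ((chi {i} x : ℝ) * (chi {j} x : ℝ)) := by
    intro x
    unfold ss
    rw [sq, Finset.sum_mul_sum]
  simp_rw [h1]
  rw [Finset.sum_comm]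
  have h2 : ∀ i : Fin n, ∑ x : Fin n → Bool, ∑ j : Fin n, ((chi {i} x : ℝ) * (chi {j} x : ℝ)) =
      2 ^ n := by
    intro i
    rw [Finset.sum_comm, Finset.sum_eq_single i]
    · rw [Finset.sum_congr rfl (g := fun _ => (1 : ℝ)) (fun x _ => ?_)]
      · simp
      · rw [vbase_chi_cast, Finset.prod_singleton, vbase_sg_sq]
    · intro j _ hj
      have h3 : ∀ x : Fin n → Bool, (chi {i} x : ℝ) * (chi {j} x : ℝ) =
          (chi (insert i {j}) x : ℝ) := by
        intro x
        rw [vbase_chi_mul, if_neg (by rw [Finset.mem_singleton]; exact fun h => hj h.symm)]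
      simp_rw [h3]
      exact vbase_sum_chi _ (Finset.insert_nonempty _ _)
    · intro h
      exact absurd (Finset.mem_univ _) h
  simp_rw [h2]
  simp

theorem degLe_le {n d e : ℕ} (h : d ≤ e) {f : (Fin n → Bool) → ℝ} (hf : DegLe d f) :
    DegLe e f := fun T hT => hf T (lt_of_le_of_lt h hT)

/-- multiplication by `ss` raises the degree by at most one:
`chi {i} x * chi T x = chi (symmDiff {i} T) x`, and `T.card - 1 ≤ (symmDiff {i} T).card` -/
theorem degLe_mul_ss {n d : ℕ} {f : (Fin n → Bool) → ℝ} (hf : DegLe d f) :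
    DegLe (d + 1) (fun x => f x * ss x) := by
  intro T hT
  have h1 : ∀ x : Fin n → Bool, f x * ss x * (chi T x : ℝ) =
      ∑ i : Fin n, f x * (chi (if i ∈ T then T.erase i else insert i T) x : ℝ) := by
    intro x
    unfold ss
    rw [mul_assoc, Finset.sum_mul, Finset.mul_sum]
    refine Finset.sum_congr rfl fun i _ => ?_
    rw [vbase_chi_mul]
  simp_rw [h1]
  rw [Finset.sum_comm]
  refine Finset.sum_eq_zero fun i _ => hf _ ?_
  split_ifs with h
  · rw [Finset.card_erase_of_mem h]
    omega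
  · rw [Finset.card_insert_of_notMem h]
    omega

/-- the constant function has degree zero -/
theorem degLe_one (n : ℕ) : DegLe 0 (fun _ : Fin n → Bool => (1 : ℝ)) := by
  intro T hT
  simp_rw [one_mul]
  exact vbase_sum_chi T (Finset.card_pos.1 hT)

theorem vbase_pow (n : ℕ) : ∀ k : ℕ, DegLe k (fun x : Fin n → Bool => ss x ^ k)
  | 0 => by
    simp only [pow_zero]
    exact degLe_one n
  | k + 1 => by
    simp only [pow_succ]
    exact degLe_mul_ss (vbase_pow n k)

/-- a polynomial of degree at most `D` in `c * ss` has degree at most `D` -/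
theorem degLe_poly {n D : ℕ} (P : Polynomial ℝ) (h : P.natDegree ≤ D) (c : ℝ) :
    DegLe D (fun x : Fin n → Bool => P.eval (c * ss x)) := by
  intro T hT
  have h1 : ∀ x : Fin n → Bool, P.eval (c * ss x) * (chi T x : ℝ) =
      ∑ k ∈ Finset.range (D + 1), P.coeff k * c ^ k * (ss x ^ k * (chi T x : ℝ)) := by
    intro x
    rw [Polynomial.eval_eq_sum_range' (Nat.lt_succ_of_le h), Finset.sum_mul]
    refine Finset.sum_congr rfl fun k _ => ?_
    ring
  simp_rw [h1]
  rw [Finset.sum_comm]
  refine Finset.sum_eq_zero fun k hk => ?_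
  rw [← Finset.mul_sum, vbase_pow n k T (by rw [Finset.mem_range] at hk; omega), mul_zero]

end P047F
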